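import Vale.Agent.Lib.P055.Path

/-!
P048 (cycle-complete Ramsey numbers): a window version of the Erdos-Faudree-Rousseau-Schelp identity.
Cycles are handled as vertex lists (`CycL`) and converted to Mathlib walks at the end.
-/

namespace Vale.Agent.Lib.P048

open Classical

variable {V : Type*}

/-- `l` lists the vertices of a cycle of `G` in cyclic order. -/
def CycL (G : SimpleGraph V) (l : List V) : Prop :=
  l.Nodup ∧ 3 ≤ l.length ∧ l.IsChain G.Adj ∧ ∀ a ∈ l.head?, ∀ b ∈ l.getLast?, G.Adj b a

theorem length_le_one_of_closing_edge (G : SimpleGraph V) {a b : V} (p : G.Walk a b)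
    (hp : p.IsPath) (he : s(b, a) ∈ p.edges) : p.length ≤ 1 := by
  cases p with
  | nil => simp
  | @cons _ c _ h' p' =>
    rw [SimpleGraph.Walk.cons_isPath_iff] at hp
    rw [SimpleGraph.Walk.edges_cons, List.mem_cons] at he
    rcases he with he | he
    · rw [Sym2.eq_iff] at he
      rcases he with ⟨h1, h2⟩ | ⟨h1, _⟩
      · exact absurd h' (by rw [h2]; exact G.loopless.irrefl c)
      · subst h1
        have hnil : p'.Nil := SimpleGraph.Walk.isPath_iff_nil.1 hp.1
        have h0 : p'.length = 0 := SimpleGraph.Walk.length_eq_zero_iff.2 hnil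
        rw [SimpleGraph.Walk.length_cons, h0]
    · exact absurd (SimpleGraph.Walk.snd_mem_support_of_mem_edges p' he) hp.2

/-- W0 -/
theorem exists_walk_of_cycL (G : SimpleGraph V) (l : List V) (h : CycL G l) :
    ∃ (v : V) (p : G.Walk v v), p.IsCycle ∧ p.length = l.length := by
  obtain ⟨hnd, hlen, hch, hcl⟩ := h
  have hne : l ≠ [] := by
    intro h0; subst h0; simp at hlen
  have hadj : G.Adj (l.getLast hne) (l.head hne) :=
    hcl _ (by rw [List.head?_eq_some_head hne]; rfl) _
      (by rw [List.getLast?_eq_some_getLast hne]; rfl)
  set p := SimpleGraph.Walk.ofSupport l hne hch with hp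
  have hpath : p.IsPath := by
    rw [SimpleGraph.Walk.isPath_def, hp, SimpleGraph.Walk.support_ofSupport]; exact hnd
  have hplen : p.length = l.length - 1 := SimpleGraph.Walk.length_ofSupport hne hch
  refine ⟨_, SimpleGraph.Walk.cons hadj p, ?_, ?_⟩
  · rw [SimpleGraph.Walk.cons_isCycle_iff]
    refine ⟨hpath, fun he => ?_⟩
    have := length_le_one_of_closing_edge G p hpath he
    omega
  · rw [SimpleGraph.Walk.length_cons, hplen]; omega

/-- W1 (Posa): induction on `n`.  Take a longest path `x :: _` inside `S` (`P055.exists_longest`); all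
`S`-neighbours of `x` are on it (`P055.head_rule`); let `u` be the last one (`P055.exists_last_mem`).
The initial segment up to `u` is a cycle; if it has fewer than `m` vertices remove it from `S`:
`x` has no neighbour in the rest, so the rest has no independent set of size `n + 1`. -/
theorem exists_cycle_ge [Fintype V] (G : SimpleGraph V) (m : ℕ) (hm : 3 ≤ m) :
    ∀ (n : ℕ) (S : Finset V), (m - 1) * n + 1 ≤ S.card →
      (∀ I : Finset V, I ⊆ S → I.card = n + 1 → ¬ G.IsIndepSet (I : Set V)) →
      ∃ l, CycL G l ∧ m ≤ l.length := by
  intro n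
  induction n with
  | zero =>
    intro S hS hI
    have h0 : 0 < S.card := by omega
    obtain ⟨s, hs⟩ := Finset.card_pos.mp h0
    exact absurd (by simp [SimpleGraph.IsIndepSet]) (hI {s} (by simpa using hs) (by simp))
  | succ n ih =>
    intro S hS hI
    have key : ∀ (x : V) (C : Finset V), x ∈ S → x ∈ C → C.card ≤ m - 1 →
        (∀ y ∈ S, G.Adj x y → y ∈ C) → ∃ l, CycL G l ∧ m ≤ l.length := by
      intro x C hxS hxC hC hN
      apply ih (S \ C)
      · have h1 := Finset.le_card_sdiff C S
        have h2 : (m - 1) * (n + 1) = (m - 1) * n + (m - 1) := by ring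
        omega
      · intro I hIS hIc hind
        have hxI : x ∉ I := fun h => (Finset.mem_sdiff.mp (hIS h)).2 hxC
        apply hI (insert x I)
        · intro y hy
          rcases Finset.mem_insert.mp hy with rfl | hy
          · exact hxS
          · exact (Finset.mem_sdiff.mp (hIS hy)).1
        · rw [Finset.card_insert_of_notMem hxI, hIc]
        · intro a ha b hb hab
          simp only [Finset.coe_insert, Set.mem_insert_iff, Finset.mem_coe] at ha hb
          rcases ha with rfl | ha <;> rcases hb with rfl | hb
          · exact absurd rfl hab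
          · intro hadj
            exact (Finset.mem_sdiff.mp (hIS hb)).2 (hN b (Finset.mem_sdiff.mp (hIS hb)).1 hadj)
          · intro hadj
            exact (Finset.mem_sdiff.mp (hIS ha)).2 (hN a (Finset.mem_sdiff.mp (hIS ha)).1 hadj.symm)
          · exact hind (by simpa using ha) (by simpa using hb) hab
    have hSne : S.Nonempty := Finset.card_pos.mp (by omega)
    obtain ⟨P, hP, hne, hmax⟩ := P055.exists_longest G S hSne
    cases P with
    | nil => exact absurd rfl hne
    | cons x P' =>
    have hxS : x ∈ S := hP.2.2 x (by simp)
    by_cases hex : ∃ y ∈ x :: P', G.Adj x y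
    · obtain ⟨Q, u, Q', hdec, hu, hQ'⟩ := P055.exists_last_mem (x :: P') (fun y => G.Adj x y) hex
      cases Q with
      | nil =>
        simp only [List.nil_append, List.cons.injEq] at hdec
        rw [← hdec.1] at hu
        exact absurd hu (G.irrefl)
      | cons x' Q0 =>
      simp only [List.cons_append, List.cons.injEq] at hdec
      obtain ⟨rfl, hdec⟩ := hdec
      have hfull : x :: P' = (x :: (Q0 ++ [u])) ++ Q' := by rw [hdec]; simp
      by_cases hlen : m ≤ (x :: (Q0 ++ [u])).length
      · refine ⟨x :: (Q0 ++ [u]), ⟨?_, by omega, ?_, ?_⟩, hlen⟩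
        · have := hP.1
          rw [hfull] at this
          exact (List.nodup_append.mp this).1
        · have := hP.2.1
          rw [hfull] at this
          exact this.left_of_append
        · intro a ha b hb
          simp only [List.head?_cons, Option.mem_def, Option.some.injEq] at ha
          have hb' : (x :: (Q0 ++ [u])).getLast? = some u := by
            rw [← List.cons_append, List.getLast?_append]
            simp
          rw [Option.mem_def, hb', Option.some.injEq] at hb
          rw [← ha, ← hb]
          exact hu.symm
      · apply key x (x :: (Q0 ++ [u])).toFinset hxS (by simp)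
        · have := List.toFinset_card_le (x :: (Q0 ++ [u]))
          omega
        · intro y hyS hadj
          have h1 : y ∈ x :: P' := P055.head_rule hmax hP rfl hyS hadj
          rw [hfull] at h1
          rcases List.mem_append.mp h1 with h | h
          · exact List.mem_toFinset.mpr h
          · exact absurd hadj (hQ' y h)
    · apply key x {x} hxS (by simp) (by simp; omega)
      intro y hyS hadj
      exact absurd ⟨y, P055.head_rule hmax hP rfl hyS hadj, hadj⟩ hex

/-- chord surgery: cut out the piece strictly between positions `p < q` joined by a chord -/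
theorem cycL_chord (G : SimpleGraph V) (l : List V) (hl : CycL G l) (p q : ℕ) (hpq : p < q)
    (hq : q + 1 < l.length) (hadj : G.Adj (l[p]'(by omega)) (l[q]'(by omega))) :
    CycL G (l.take (p + 1) ++ l.drop q) ∧ (l.take (p + 1) ++ l.drop q).length = l.length - (q - p - 1) := by
  obtain ⟨hnd, hlen, hch, hclose⟩ := hl
  have hL : (l.take (p + 1) ++ l.drop q).length = l.length - (q - p - 1) := by
    rw [List.length_append, List.length_take, List.length_drop]
    omega
  have htne : l.take (p + 1) ≠ [] := by
    intro h
    have h' := congrArg List.length h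
    rw [List.length_take, List.length_nil] at h'
    omega
  have hdne : l.drop q ≠ [] := by
    intro h
    have h' := congrArg List.length h
    rw [List.length_drop, List.length_nil] at h'
    omega
  refine ⟨⟨?_, ?_, ?_, ?_⟩, hL⟩
  · have hsub : (l.take (p + 1) ++ l.drop q).Sublist l := by
      have h1 : l.drop q = (l.drop (p + 1)).drop (q - (p + 1)) := by
        rw [List.drop_drop]; congr 1; omega
      have h2 : (l.drop q).Sublist (l.drop (p + 1)) := by
        rw [h1]; exact List.drop_sublist _ _
      have h3 := List.Sublist.append (List.Sublist.refl (l.take (p + 1))) h2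
      rwa [List.take_append_drop] at h3
    exact hsub.nodup hnd
  · rw [hL]; omega
  · apply List.IsChain.append (hch.take _) (hch.drop _)
    intro x hx y hy
    have e1 : (l.take (p + 1)).getLast? = some (l[p]'(by omega)) := by
      rw [List.getLast?_take]
      have : p < l.length := by omega
      simp [List.getElem?_eq_getElem this]
    have e2 : (l.drop q).head? = some (l[q]'(by omega)) := by
      rw [List.head?_drop]
      have : q < l.length := by omega
      simp [List.getElem?_eq_getElem this]
    rw [Option.mem_def, e1, Option.some.injEq] at hx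
    rw [Option.mem_def, e2, Option.some.injEq] at hy
    rw [← hx, ← hy]
    exact hadj
  · intro a ha b hb
    apply hclose
    · rw [List.head?_append_of_ne_nil _ htne, List.head?_take] at ha
      simpa using ha
    · rw [List.getLast?_append_of_ne_nil _ hdne, List.getLast?_drop] at hb
      have : ¬ l.length ≤ q := by omega
      simpa [this] using hb

/-- W2 (one chord): the `n` vertices `l[0], l[2], ..., l[2n-2]` are not independent; if
`l[2i] ~ l[2j]`, `i < j`, take `l.take (2i+1) ++ l.drop (2j)`. -/
theorem exists_shorter (G : SimpleGraph V) (l : List V) (hl : CycL G l) (n : ℕ) (hn : 2 ≤ n)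
    (hlen : 2 * n ≤ l.length) (hfree : G.IndepSetFree n) :
    ∃ l', CycL G l' ∧ l'.length < l.length ∧ l.length ≤ l'.length + (2 * n - 3) := by
  set f : Fin n → V := fun t => l[2 * t.1]'(by have := t.2; omega) with hf
  have hinj : Function.Injective f := by
    intro s t hst
    have := (List.Nodup.getElem_inj_iff hl.1).mp hst
    exact Fin.ext (by omega)
  have hcard : (Finset.univ.image f).card = n := by
    rw [Finset.card_image_of_injective _ hinj]; simp
  have hnot : ¬ G.IsIndepSet ((Finset.univ.image f : Finset V) : Set V) := by
    intro h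
    exact hfree _ ⟨h, hcard⟩
  have hex : ∃ s t : Fin n, s < t ∧ G.Adj (f s) (f t) := by
    by_contra hcon
    apply hnot
    intro a ha b hb hab hadj
    simp only [Finset.coe_image, Finset.coe_univ, Set.image_univ, Set.mem_range] at ha hb
    obtain ⟨s, rfl⟩ := ha
    obtain ⟨t, rfl⟩ := hb
    rcases lt_trichotomy s t with h | h | h
    · exact hcon ⟨s, t, h, hadj⟩
    · exact hab (by rw [h])
    · exact hcon ⟨t, s, h, hadj.symm⟩
  obtain ⟨s, t, hst, hadj⟩ := hex
  have hs := s.2
  have ht := t.2
  have hst' : s.1 < t.1 := hst
  obtain ⟨h1, h2⟩ := cycL_chord G l hl (2 * s.1) (2 * t.1) (by omega) (by omega) hadj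
  refine ⟨_, h1, ?_, ?_⟩
  · rw [h2]; omega
  · rw [h2]; omega

/-- the disjoint union of `a` cliques of order `b` -/
def cliques (a b : ℕ) : SimpleGraph (Fin a × Fin b) where
  Adj x y := x.1 = y.1 ∧ x.2 ≠ y.2
  symm := ⟨fun _ _ h => ⟨h.1.symm, h.2.symm⟩⟩
  loopless := ⟨fun _ h => h.2 rfl⟩

/-- W3a: pigeonhole. -/
theorem cliques_indepSetFree (a b : ℕ) : (cliques a b).IndepSetFree (a + 1) := by
  intro t ht
  obtain ⟨x, hx, y, hy, hxy, hf⟩ := Finset.exists_ne_map_eq_of_card_lt_of_maps_to
    (s := t) (t := (Finset.univ : Finset (Fin a))) (f := Prod.fst)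
    (by rw [ht.card_eq]; simp) (fun _ _ => Finset.mem_univ _)
  refine ht.isIndepSet hx hy hxy ⟨hf, fun h2 => hxy (Prod.ext hf h2)⟩

theorem cliques_fst_const (a b : ℕ) {u w : Fin a × Fin b} (p : (cliques a b).Walk u w) :
    ∀ x ∈ p.support, x.1 = u.1 := by
  induction p with
  | nil => intro x hx; simp at hx; rw [hx]
  | cons h p ih =>
    intro x hx
    rw [SimpleGraph.Walk.support_cons, List.mem_cons] at hx
    rcases hx with rfl | hx
    · rfl
    · rw [ih x hx]; exact h.1.symm

/-- W3b -/
theorem cliques_cycle_le (a b : ℕ) (v : Fin a × Fin b) (p : (cliques a b).Walk v v)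
    (hp : p.IsCycle) : p.length ≤ b := by
  have hnd : p.support.tail.Nodup := hp.support_nodup
  have hlen : p.support.tail.length = p.length := by
    rw [List.length_tail, SimpleGraph.Walk.length_support]; rfl
  have hinj : (p.support.tail.map Prod.snd).Nodup := by
    refine (List.nodup_map_iff_inj_on hnd).2 ?_
    intro x hx y hy hxy
    have h1 := cliques_fst_const a b p x (List.mem_of_mem_tail hx)
    have h2 := cliques_fst_const a b p y (List.mem_of_mem_tail hy)
    exact Prod.ext (h1.trans h2.symm) hxy
  have := hinj.length_le_card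
  rw [List.length_map, hlen, Fintype.card_fin] at this
  exact this

end Vale.Agent.Lib.P048
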